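import Vale.Agent.P298.Bdl.B1

open Metric Vale.Agent.P298

/-- **Companion flag theorem.** A `μ`-constant family `f_t` of isolated surface singularities in
`ℂ³` is topologically right-trivial as soon as there are holomorphic families `e_t`, `h_t` for
which the colengths of the ideals `(f_t, 2 × 2 minors of d(f_t, e_t))`,
`(f_t, e_t, det d(f_t, e_t, h_t))` and `(f_t, e_t, h_t)` do not depend on `t`. -/
theorem Vale.Agent.Results.P298.CompanionFlag.result {r : ℝ} (hr : 0 < r)
    {F E H : (Fin 3 → ℂ) → ℂ → ℂ}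
    (hF : IsHolFamily r F) (hE : IsHolFamily r E) (hH : IsHolFamily r H) {μ a b c : ℕ}
    (h₁ : ∀ t ∈ ball (0 : ℂ) r, Milnor (F · t) μ)
    (h₂ : ∀ t ∈ ball (0 : ℂ) r, Colength ![(F · t), minor2 0 1 (F · t) (E · t),
      minor2 0 2 (F · t) (E · t), minor2 1 2 (F · t) (E · t)] a)
    (h₃ : ∀ t ∈ ball (0 : ℂ) r, Colength ![(F · t), (E · t), jac3 (F · t) (E · t) (H · t)] b)
    (h₄ : ∀ t ∈ ball (0 : ℂ) r, Colength ![(F · t), (E · t), (H · t)] c) :
    TopRightTrivial r F :=
  companion_flag hr hF hE hH h₁ h₂ h₃ h₄
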